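import Vale.Agent.P181.R2.H959.VDefs

/-! ROWS V1 - V5 for W7 family (literal statements, they typecheck).

set_option autoImplicit false
namespace Vale.Agent.P181.FR
-- V1
theorem YS_MP {m i : ℕ} (hi : 1 ≤ i) (him : i ≤ m) {S : Finset (Fin (2 * i - 1 + 1))} (hS : S ∈ sub i) :
    YS him S ∈ MP (2 * i - 1 + 1) m 2 := sorry
theorem YS_HWF {m i : ℕ} (hi : 1 ≤ i) (him : i ≤ m) {S : Finset (Fin (2 * i - 1 + 1))} (hS : S ∈ sub i) :
    HWF (2 * i - 1 + 1) m (4 • om m i) (YS him S) := sorry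
theorem YS_perm {B m i : ℕ} (him : i ≤ m) (S : Finset (Fin B)) (σ : Equiv.Perm (Fin B)) (p : Fin B → Fin m → ℂ) :
    YS him S (fun j => p (σ j)) = YS him (S.map σ.toEmbedding) p := sorry
theorem YS_diag {B m i : ℕ} (him : i ≤ m) {S : Finset (Fin B)} {u v : Fin B} (hu : u ∈ S) (hv : v ∈ S)
    (huv : u ≠ v) {p : Fin B → Fin m → ℂ} (h : p u = p v) : YS him S p = 0 := sorry
-- V2 (from V1)
theorem G_props {m i : ℕ} (hi : 3 ≤ i) (him : i ≤ m) {al be ga c : ℕ}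
    (hc : al + ((2 * i).choose i - 1) * be + (2 * i).choose i * (1 + ga) = c) :
    (F1 him ^ al * F2 him ^ be * F3 him ^ (1 + ga)) ∈ MP (2 * i - 1 + 1) m (2 * c) ∧
    (∀ (σ : Equiv.Perm (Fin (2 * i - 1 + 1))) p,
      (F1 him ^ al * F2 him ^ be * F3 him ^ (1 + ga)) (fun j => p (σ j)) =
        (F1 him ^ al * F2 him ^ be * F3 him ^ (1 + ga)) p) ∧
    HWF (2 * i - 1 + 1) m ((4 * c) • om m i) (F1 him ^ al * F2 him ^ be * F3 him ^ (1 + ga)) ∧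
    (∀ p (u v : Fin (2 * i - 1 + 1)), u ≠ v → p u = p v →
      (F1 him ^ al * F2 him ^ be * F3 him ^ (1 + ga)) p = 0) := sorry
-- V3
theorem YS_curve {m i : ℕ} (hi : 3 ≤ i) (him : i ≤ m) :
    ∃ (P : Fin (2 * i - 1) → Fin m → ℂ) (ty : Finset (Fin (2 * i - 1 + 1)) → Fin 3),
      (∃ S ∈ sub i, ty S = 1) ∧ (∃ S ∈ sub i, ty S = 2) ∧ (∃ S ∈ sub i, ty S = 0) ∧
      ∀ La : ℕ, 2 ≤ La → ∃ y : Finset (Fin (2 * i - 1 + 1)) → Polynomial ℝ,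
        (∀ S ∈ sub i, 0 < (y S).leadingCoeff ∧
          (y S).natDegree = if ty S = 0 then 2 * La else if ty S = 1 then 2 * La - 2 else 0) ∧
        ∀ S ∈ sub i, ∀ t : ℝ, YS him S (Fin.snoc (α := fun _ => Fin m → ℂ) P (curve m La t)) = (((y S).eval t : ℝ) : ℂ) := sorry
-- V4: from V3, the degrees
theorem G_curve {m i : ℕ} (hi : 3 ≤ i) (him : i ≤ m) :
    ∃ (P : Fin (2 * i - 1) → Fin m → ℂ) (Ny Nz : ℕ), 1 ≤ Ny ∧ 1 ≤ Nz ∧ Ny + Nz ≤ (2 * i).choose i ∧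
      ∀ La : ℕ, 2 ≤ La → ∃ D3 : ℕ, D3 + 2 * Ny + 2 * La * Nz = 2 * La * (2 * i).choose i ∧
      ∃ f1 f2 f3 : Polynomial ℝ, f1.natDegree = 2 * La ∧ f2.natDegree = D3 ∧ f3.natDegree = D3 ∧
        f1 ≠ 0 ∧ f2 ≠ 0 ∧ f3 ≠ 0 ∧
        ∀ t : ℝ, F1 him (Fin.snoc (α := fun _ => Fin m → ℂ) P (curve m La t)) = ((f1.eval t : ℝ) : ℂ) ∧
          F2 him (Fin.snoc (α := fun _ => Fin m → ℂ) P (curve m La t)) = ((f2.eval t : ℝ) : ℂ) ∧
          F3 him (Fin.snoc (α := fun _ => Fin m → ℂ) P (curve m La t)) = ((f3.eval t : ℝ) : ℂ) := sorry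
-- V5: W7 family from V2, V4: for h take La = 2 N h + 2; G be ga = F1^(c - (N-1) be - N (1+ga)) F2^be F3^(1+ga) has t-degree
-- 2 La c - 2 Ny (be+ga) - 2 La ((Nz-1) be + Nz ga) + const: injective in (be, ga), so linearly independent
end Vale.Agent.P181.FR
-/
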