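import Vale.Agent.P181.R2.H959.WDefs

/-! ROWS W1 - W11 of P181.AllFewRows (literal statements, they typecheck).

import Vale.Agent.P181.R2.H959.FMul
set_option autoImplicit false
open scoped TensorProduct
namespace Vale.Agent.P181.FR
open Vale.Agent.P181 Vale.Agent.P181.H280
-- W1 cyclic word
theorem cyc {B m e : ℕ} (hmB : m ≤ B) (hB : 0 < B) (g : ℕ → ℕ)
    (hs : ∑ j ∈ Finset.Icc 1 m, j * g j = e * B) :
    ∃ G ∈ MP B m e, HWF B m (gw m g) G ∧ G ≠ 0 := sorry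
-- W2 hypergraphs
theorem hyper {B m i : ℕ} (hi : 2 ≤ i) (him : i ≤ m) (hB : 2 * i + 1 ≤ B)
    (σ : Equiv.Perm (Fin B)) (hσ : σ ≠ 1) :
    ∃ A A' : (Fin B → Fin m → ℂ) → ℂ, A ∈ MP B m ((B - 1).choose (i - 1)) ∧
      A' ∈ MP B m ((B - 1).choose (i - 1)) ∧ HWF B m (B.choose i • om m i) A ∧
      HWF B m (B.choose i • om m i) A' ∧
      ∃ P, A P * A' (fun j => P (σ j)) ≠ A (fun j => P (σ j)) * A' P := sorry
-- W3 separation (from hyper)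
theorem sep {B m i e : ℕ} (hi : 2 ≤ i) (him : i ≤ m) (hB : 2 * i + 1 ≤ B) {nu : Fin m → ℕ}
    (G : (Fin B → Fin m → ℂ) → ℂ) (hG : G ∈ MP B m e) (hw : HWF B m nu G) (h0 : G ≠ 0) :
    Pos B (e + (B.factorial - 1) * (B - 1).choose (i - 1)) m
      (nu + ((B.factorial - 1) * B.choose i) • om m i) := sorry
-- W4 (from cyc, sep)
theorem sym_pos {B m i : ℕ} (hi : 2 ≤ i) (him : i ≤ m) (hmB : m ≤ B) (hB : 2 * i + 1 ≤ B) :
    ∃ K : ℕ, ∀ (a : ℕ) (g : ℕ → ℕ), K ≤ a → K ≤ g i →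
      ∑ j ∈ Finset.Icc 1 m, j * g j = a * B → Pos B a m (gw m g) := sorry
-- W5 (from sym_pos, gen0, Pos.mul)
theorem pos_all {m i : ℕ} (hi : 2 ≤ i) (him : i ≤ m) : ∃ a0 : ℕ, ∀ (a B : ℕ) (g : ℕ → ℕ),
    a0 ≤ a → 3 * (m + 1) * a ≤ g i → ∑ j ∈ Finset.Icc 1 m, j * g j = a * B →
    Pos B a m (gw m g) := sorry
-- W6
theorem rich_of_family {d c m s R : ℕ} {nu : Fin m → ℕ}
    (G : Fin R → Fin s → ((Fin (d + 1) → Fin m → ℂ) → ℂ)) (hG : ∀ r k, G r k ∈ MP (d + 1) m c)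
    (hsy : ∀ r k (σ : Equiv.Perm (Fin (d + 1))) p, G r k (fun j => p (σ j)) = G r k p)
    (hw : ∀ r k, HWF (d + 1) m nu (G r k))
    (hdiag : ∀ r k p (i j : Fin (d + 1)), i ≠ j → p i = p j → G r k p = 0)
    (P : Fin d → Fin m → ℂ)
    (hli : LinearIndependent ℂ (fun rk : Fin R × Fin s => fun q : Fin m → ℂ =>
      G rk.1 rk.2 (Fin.snoc (α := fun _ => Fin m → ℂ) P q))) :
    s ^ R ≤ plethMult ((d + 1) * R) c m (R • nu) := sorry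
-- W7
theorem family {m i : ℕ} (hi : 3 ≤ i) (him : i ≤ m) : ∃ (N : ℕ) (P : Fin (2 * i - 1) → Fin m → ℂ),
    ∀ c h : ℕ, N * (h + 1) ≤ c →
    ∃ G : Fin h → Fin h → ((Fin (2 * i - 1 + 1) → Fin m → ℂ) → ℂ),
      (∀ r k, G r k ∈ MP (2 * i - 1 + 1) m (2 * c)) ∧
      (∀ r k (σ : Equiv.Perm (Fin (2 * i - 1 + 1))) p, G r k (fun j => p (σ j)) = G r k p) ∧
      (∀ r k, HWF (2 * i - 1 + 1) m ((4 * c) • om m i) (G r k)) ∧
      (∀ r k p (u v : Fin (2 * i - 1 + 1)), u ≠ v → p u = p v → G r k p = 0) ∧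
      LinearIndependent ℂ (fun rk : Fin h × Fin h => fun q : Fin m → ℂ =>
        G rk.1 rk.2 (Fin.snoc (α := fun _ => Fin m → ℂ) P q)) := sorry
-- W8 (from W6, W7)
theorem rich_rect {m i : ℕ} (hi : 3 ≤ i) (him : i ≤ m) : ∃ N : ℕ, ∀ c h R s : ℕ,
    N * (h + 1) ≤ c → R * s ≤ h * h →
    s ^ R ≤ plethMult (2 * i * R) (2 * c) m ((4 * c * R) • om m i) := sorry
-- W9 (from W5, W8, plethMult_pt, plethMult_mul, plethMult_le_pow)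
theorem gap_case {m i : ℕ} (hi : 3 ≤ i) (him : i ≤ m) : ∃ C : ℕ, ∀ (a b : ℕ) (g : ℕ → ℕ),
    C ≤ a → b + 1 ≤ a ^ 2 → ∑ j ∈ Finset.Icc 1 m, j * g j = a * b → C * a ^ 2 ≤ g i →
    plethMult a b m (gw m g) ≤ plethMult b a m (gw m g) := sorry
-- W10
theorem hw_antitone {b a m : ℕ} {lam : Fin m → ℕ} {x : Pleth b a m}
    (hw : x ∈ hwSpace lam (plethAct b a m)) (h0 : x ≠ 0) : ∀ i j : Fin m, i ≤ j → lam j ≤ lam i := sorry
-- W11 (from W9, W10, hw_sum, TN.KK_all / plethMult_of_KK, foulkesHowe_injective)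
theorem all_rows (n : ℕ) : ∃ C : ℕ, ∀ (a b : ℕ) (lam : Fin (n + 3) → ℕ),
    C * a ^ (2 * n + 3) ≤ b ^ (n + 2) → plethMult a b (n + 3) lam ≤ plethMult b a (n + 3) lam := sorry
end Vale.Agent.P181.FR
-/
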