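import Vale.Agent.P181.R2.H959.WDefs

/-! ROWS Y1 - Y7 of P181 (literal statements, they typecheck).

import Vale.Agent.P181.R2.H959.FMul

set_option autoImplicit false
open scoped TensorProduct
namespace Vale.Agent.P181.FR
open Vale.Agent.P181 Vale.Agent.P181.H280
-- Y1 mixed family
theorem family2 {m i : ℕ} (hi : 3 ≤ i) (him : i ≤ m) :
    ∃ (N : ℕ) (P : Fin (2 * i - 1) → Fin m → ℂ), 0 < N ∧ ∀ h1 h2 : ℕ,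
    ∃ G : Fin h1 → Fin h2 → ((Fin (2 * i - 1 + 1) → Fin m → ℂ) → ℂ),
      (∀ r k, G r k ∈ MP (2 * i - 1 + 1) m (2 * N * (h1 + 1) + 2 * N * (h2 + 1))) ∧
      (∀ r k (σ : Equiv.Perm (Fin (2 * i - 1 + 1))) p, G r k (fun j => p (σ j)) = G r k p) ∧
      (∀ r k, HWF (2 * i - 1 + 1) m
        ((2 * i * N * (h1 + 1)) • om m 2 + (4 * N * (h2 + 1)) • om m i) (G r k)) ∧
      (∀ r k p (u v : Fin (2 * i - 1 + 1)), u ≠ v → p u = p v → G r k p = 0) ∧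
      LinearIndependent ℂ (fun rk : Fin h1 × Fin h2 => fun q : Fin m → ℂ =>
        G rk.1 rk.2 (Fin.snoc (α := fun _ => Fin m → ℂ) P q)) := sorry
-- Y2 (from W6, Y1)
theorem rich_mix {m i : ℕ} (hi : 3 ≤ i) (him : i ≤ m) : ∃ N : ℕ, 0 < N ∧ ∀ h1 h2 R s : ℕ,
    R * s ≤ h1 * h2 →
    s ^ R ≤ plethMult (2 * i * R) (2 * N * (h1 + 1) + 2 * N * (h2 + 1)) m
      ((2 * i * N * (h1 + 1) * R) • om m 2 + (4 * N * (h2 + 1) * R) • om m i) := sorry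
-- Y3 (from W5, Pos.mul, plethMult_pt, plethMult_mul)
theorem gap_core {m i : ℕ} (hi : 2 ≤ i) (him : i ≤ m) : ∃ K : ℕ, ∀ (a b B c S : ℕ) (u g : ℕ → ℕ),
    i ∣ B → K + c ≤ a → B + K ≤ b → (∀ j, u j ≤ g j) →
    ∑ j ∈ Finset.Icc 1 m, j * u j = c * B → ∑ j ∈ Finset.Icc 1 m, j * g j = a * b →
    u i + K * a ≤ g i → S ≤ plethMult B c m (gw m u) → S ≤ plethMult b a m (gw m g) := sorry
-- Y4 (from Y2, Y3)
theorem gap_mix {m i : ℕ} (hi : 3 ≤ i) (him : i ≤ m) {ε : ℝ} (hε : 0 < ε) :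
    ∃ C : ℝ, 0 < C ∧ ∀ (a b : ℕ) (g : ℕ → ℕ), C * a ≤ b →
    ∑ j ∈ Finset.Icc 1 m, j * g j = a * b →
    C * (a : ℝ) ^ (1 + ε) ≤ g 2 → C * (a : ℝ) ^ (1 + ε) ≤ g i →
    C * (a : ℝ) ^ (3 + ε) ≤ (g 2 : ℝ) * g i →
    plethMult a b m (gw m g) ≤ plethMult b a m (gw m g) := sorry
-- Y5 (from W8, Y3), replaces W13
theorem gap_pure {m i : ℕ} (hi : 3 ≤ i) (him : i ≤ m) {ε : ℝ} (hε : 0 < ε) :
    ∃ C : ℝ, 0 < C ∧ ∀ (a b : ℕ) (g : ℕ → ℕ), C * a ≤ b →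
    ∑ j ∈ Finset.Icc 1 m, j * g j = a * b → C * (a : ℝ) ^ (3 / 2 + ε) ≤ g i →
    plethMult a b m (gw m g) ≤ plethMult b a m (gw m g) := sorry
-- Y6 THEOREM Y (from W10, hw_sum, Y4, Y5)
theorem all_mix (n : ℕ) {ε : ℝ} (hε : 0 < ε) : ∃ C : ℝ, 0 < C ∧
    ∀ (a b : ℕ) (lam : Fin (n + 3) → ℕ), C * a ≤ b → C * (a : ℝ) ^ (1 + ε) ≤ lam 2 →
    C * (a : ℝ) ^ (3 + ε) ≤ (lam 1 : ℝ) * lam 2 →
    plethMult a b (n + 3) lam ≤ plethMult b a (n + 3) lam := sorry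
-- Y7 THEOREM Z (from Y6, W10, hw_sum, TN.KK_all, foulkes_quadratic); W14 is the case of all lam
theorem all_wide (n : ℕ) {ε : ℝ} (hε : 0 < ε) : ∃ C : ℝ, 0 < C ∧
    ∀ (a b : ℕ) (lam : Fin (n + 3) → ℕ), C * (a : ℝ) ^ (1 + ε) ≤ b →
    C * (a : ℝ) ^ (3 * n + 4 + ε) ≤ (b : ℝ) ^ (n + 2) * (lam 1 : ℝ) ^ (n + 1) →
    plethMult a b (n + 3) lam ≤ plethMult b a (n + 3) lam := sorry
end Vale.Agent.P181.FR
-/
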